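import Vale.Agent.P302.Lp

namespace Vale.Agent.Results.P302.Unbounded

open Finset

/-- The items `a 0, …, a (n-1)` can be partitioned into `k` bins of total size at most `1`. -/
def Packable {n : ℕ} (a : Fin n → ℚ) (k : ℕ) : Prop :=
  ∃ f : Fin n → Fin k, ∀ b : Fin k, ∑ i ∈ univ.filter (fun i => f i = b), a i ≤ 1

/-- `OPT(I)`: the least number of bins. -/
noncomputable def OPT {n : ℕ} (a : Fin n → ℚ) : ℕ := sInf {k | Packable a k}

/-- The multiplicity `n_σ` of the size `σ`. -/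
def mult {n : ℕ} (a : Fin n → ℚ) (σ : ℚ) : ℕ := (univ.filter fun i => a i = σ).card

/-- A configuration: a vector of natural numbers indexed by the sizes of the instance,
of total size at most `1`. -/
def IsConfig {n : ℕ} (a : Fin n → ℚ) (c : ℚ →₀ ℕ) : Prop :=
  (∀ σ ∈ c.support, σ ∈ Set.range a) ∧ (c.sum fun σ k => σ * (k : ℚ)) ≤ 1

/-- A feasible solution of the Gilmore-Gomory configuration LP. -/
def Feasible {n : ℕ} (a : Fin n → ℚ) (z : (ℚ →₀ ℕ) →₀ ℝ) : Prop :=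
  (∀ c, 0 ≤ z c) ∧ (∀ c ∈ z.support, IsConfig a c) ∧
    ∀ σ ∈ Set.range a, (mult a σ : ℝ) ≤ z.sum fun c x => (c σ : ℝ) * x

/-- The objective value of a solution. -/
noncomputable def value (z : (ℚ →₀ ℕ) →₀ ℝ) : ℝ := z.sum fun _ x => x

/-- `LP(I)`: the value of the configuration LP. -/
noncomputable def LP {n : ℕ} (a : Fin n → ℚ) : ℝ := sInf {v | ∃ z, Feasible a z ∧ value z = v}

lemma LP_le {n : ℕ} (a : Fin n → ℚ) (z : (ℚ →₀ ℕ) →₀ ℝ) (hz : Feasible a z) :
    LP a ≤ value z := by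
  refine csInf_le ⟨0, ?_⟩ ⟨z, hz, rfl⟩
  rintro v ⟨z, hz, rfl⟩
  exact Finset.sum_nonneg fun c _ => hz.1 c

lemma packable_OPT {n : ℕ} (a : Fin n → ℚ) (ha : ∀ i, a i ≤ 1) : Packable a (OPT a) := by
  refine Nat.sInf_mem (s := {k | Packable a k}) ⟨n, id, fun b => ?_⟩
  rw [show univ.filter (fun i : Fin n => id i = b) = {b} by ext i; simp, sum_singleton]
  exact ha b

open Vale.Agent.P302 in
lemma main (K : ℕ) : ∃ (n : ℕ) (a : Fin n → ℚ), (∀ i, 1 / 4 < a i ∧ a i < 1 / 2) ∧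
    ∃ z, Feasible a z ∧ value z + K < OPT a := by
  classical
  obtain ⟨m, h, η, G⟩ := all_all (2 * (25 * K + 2)) (by omega) (25 * K + 2) 0 (25 * K) (1 / 100)
    (by norm_num)
  obtain ⟨z, z1, z2, z3, z4⟩ := lp_sol G (by
    apply le_of_eq
    push_cast
    field_simp)
  let s : Fin 3 × Fin m → ℚ := fun t => ![X h t.2, Y h t.2, Z η t.2] t.1
  let e : Fin 3 × Fin m ≃ Fin (3 * m) := finProdFinEquiv
  have hsum : ∀ F : Fin (3 * m) → ℚ, ∑ i, F i = ∑ p : Fin m,
      (F (e (0, p)) + F (e (1, p)) + F (e (2, p))) := by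
    intro F
    rw [← e.sum_comp, Fintype.sum_prod_type_right]
    simp only [Fin.sum_univ_three]
  have hbd : ∀ t, 1 / 4 < s t ∧ s t < 1 / 2 := by
    rintro ⟨t, p⟩
    have b1 := psum_bd G (p := p) p.2.le
    have b2 := psum_bd G (p := p + 1) p.2
    have b3 := G.ηnn p (Nat.zero_le _) p.2
    have b4 := G.ηlt p (Nat.zero_le _) p.2
    fin_cases t
    · show 1 / 4 < X h p ∧ X h p < 1 / 2
      unfold X; constructor <;> linarith [b1.1, b1.2]
    · show 1 / 4 < Y h p ∧ Y h p < 1 / 2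
      unfold Y; constructor <;> linarith [b2.1, b2.2]
    · show 1 / 4 < Z η p ∧ Z η p < 1 / 2
      unfold Z; constructor <;> linarith
  refine ⟨3 * m, fun i => s (e.symm i), fun i => hbd _, z, ⟨z1, fun c hc => ⟨fun σ hσ => ?_,
    (z2 c hc).2⟩, fun σ _ => ?_⟩, ?_⟩
  · obtain ⟨p, hp, h1 | h1 | h1⟩ := (z2 c hc).1 σ hσ
    · exact ⟨e (0, ⟨p, hp⟩), by simp [s, h1]⟩
    · exact ⟨e (1, ⟨p, hp⟩), by simp [s, h1]⟩
    · exact ⟨e (2, ⟨p, hp⟩), by simp [s, h1]⟩
  · rw [z3 σ]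
    apply le_of_eq
    have : ((mult (fun i => s (e.symm i)) σ : ℕ) : ℚ) = ∑ p ∈ range m,
        ((if X h p = σ then 1 else 0) + (if Y h p = σ then 1 else 0) +
          (if Z η p = σ then 1 else 0)) := by
      unfold mult
      rw [card_filter, Nat.cast_sum, hsum, ← Fin.sum_univ_eq_sum_range (fun p =>
        ((if X h p = σ then 1 else 0) + (if Y h p = σ then 1 else 0) +
          (if Z η p = σ then 1 else 0) : ℚ))]
      refine sum_congr rfl fun p _ => ?_
      simp [s]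
    rw [← this]
    simp
  · unfold value
    rw [z4]
    by_contra hle
    have hle' : OPT (fun i => s (e.symm i)) ≤ m + K := by
      push Not at hle
      exact_mod_cast hle
    obtain ⟨f, hf⟩ := packable_OPT (fun i => s (e.symm i)) fun i => by
      have := (hbd (e.symm i)).2
      linarith
    have hm : 0 < m := G.lt
    let r : ℕ → Fin m := fun p => ⟨p % m, Nat.mod_lt _ hm⟩
    have hr : ∀ p : Fin m, r p = p := fun p => Fin.ext (Nat.mod_eq_of_lt p.2)
    refine no_pack K G (β := Fin (OPT fun i => s (e.symm i))) (by simpa using hle')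
      (fun p => f (e (0, r p))) (fun p => f (e (1, r p))) (fun p => f (e (2, r p))) fun b => ?_
    have := hf b
    rw [sum_filter, hsum] at this
    rw [sum_filter, sum_filter, sum_filter, ← sum_add_distrib, ← sum_add_distrib,
      ← Fin.sum_univ_eq_sum_range (fun p => (if f (e (0, r p)) = b then X h p else 0) +
        (if f (e (1, r p)) = b then Y h p else 0) + (if f (e (2, r p)) = b then Z η p else 0))]
    simpa [hr, s] using this

theorem result :
    (∀ K : ℕ, ∃ (n : ℕ) (a : Fin n → ℚ), (∀ i, 1 / 4 < a i ∧ a i < 1 / 2) ∧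
      LP a + K < OPT a ∧ ∃ z, Feasible a z ∧ value z + K < OPT a) ∧
    ¬ ∀ (n : ℕ) (a : Fin n → ℚ), (∀ i, 0 < a i ∧ a i ≤ 1) → (OPT a : ℤ) ≤ ⌈LP a⌉ + 1 := by
  have h1 : ∀ K : ℕ, ∃ (n : ℕ) (a : Fin n → ℚ), (∀ i, 1 / 4 < a i ∧ a i < 1 / 2) ∧
      LP a + K < OPT a ∧ ∃ z, Feasible a z ∧ value z + K < OPT a := by
    intro K
    obtain ⟨n, a, ha, z, hz, hv⟩ := main K
    have := LP_le a z hz
    exact ⟨n, a, ha, by linarith, z, hz, hv⟩
  refine ⟨h1, fun hall => ?_⟩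
  obtain ⟨n, a, ha, h2, -⟩ := h1 2
  have h3 := hall n a fun i => ⟨by linarith [(ha i).1], by linarith [(ha i).2]⟩
  have h4 : ((OPT a : ℤ) : ℝ) ≤ ((⌈LP a⌉ + 1 : ℤ) : ℝ) := by exact_mod_cast h3
  have h5 := Int.ceil_lt_add_one (LP a)
  push_cast at h2 h4
  linarith

end Vale.Agent.Results.P302.Unbounded
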